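import Vale.Agent.P028.FQ1.Weight

/-! The reduction of Q1 to a second moment bound for admissible weights. -/

namespace Vale.Agent.P028.FQ1

open Finset MeasureTheory Filter Topology
open scoped Classical

/-- The periodic weighted indicator: `w a` on `J γ ψ q a`. -/
noncomputable def WJ (γ : ℝ) (ψ : ℕ → ℝ) (q : ℕ) (w : ℤ → ℝ) (x : ℝ) : ℝ :=
  if |(q:ℝ) * x - γ - round ((q:ℝ) * x - γ)| < ψ q then w (round ((q:ℝ) * x - γ)) else 0

lemma measurable_WJ (γ : ℝ) (ψ : ℕ → ℝ) (q : ℕ) (w : ℤ → ℝ) : Measurable (WJ γ ψ q w) := by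
  have hr : Measurable fun x : ℝ => round ((q:ℝ) * x - γ) := by
    simp only [round_eq]
    exact Measurable.floor (by fun_prop)
  refine Measurable.ite ?_ ((measurable_from_top).comp hr) measurable_const
  refine measurableSet_lt ?_ measurable_const
  have hc : Measurable fun x : ℝ => ((round ((q:ℝ) * x - γ) : ℤ) : ℝ) := (measurable_from_top).comp hr
  fun_prop

lemma WJ_nonneg {γ : ℝ} {ψ : ℕ → ℝ} {q : ℕ} {w : ℤ → ℝ} (hw : ∀ a, 0 ≤ w a) (x : ℝ) :
    0 ≤ WJ γ ψ q w x := by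
  unfold WJ; split_ifs <;> simp [hw]

lemma WJ_le_one {γ : ℝ} {ψ : ℕ → ℝ} {q : ℕ} {w : ℤ → ℝ} (hw : ∀ a, w a ≤ 1) (x : ℝ) :
    WJ γ ψ q w x ≤ 1 := by
  unfold WJ; split_ifs <;> simp [hw]

lemma WJ_eq {γ : ℝ} {ψ : ℕ → ℝ} {q : ℕ} {w : ℤ → ℝ} {a : ℤ} {x : ℝ} (hq : 0 < q) (hψ : 2 * ψ q ≤ 1)
    (hx : x ∈ J γ ψ q a) : WJ γ ψ q w x = w a := by
  rw [mem_J hq, abs_lt] at hx
  have e : round ((q:ℝ) * x - γ) = a := by
    rw [round_eq, Int.floor_eq_iff]
    constructor <;> linarith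
  rw [WJ, e, if_pos]
  rw [abs_lt]
  constructor <;> linarith

lemma WJ_eq_zero {γ : ℝ} {ψ : ℕ → ℝ} {q : ℕ} {w : ℤ → ℝ} {x : ℝ} (hq : 0 < q)
    (hx : x ∉ ⋃ a : ℤ, J γ ψ q a) : WJ γ ψ q w x = 0 := by
  refine if_neg fun h => hx (Set.mem_iUnion.2 ⟨round ((q:ℝ) * x - γ), ?_⟩)
  rw [mem_J hq, show (q:ℝ) * x - round ((q:ℝ) * x - γ) - γ = (q:ℝ) * x - γ - round ((q:ℝ) * x - γ) by ring]
  exact h

lemma integrableOn_WJ {γ : ℝ} {ψ : ℕ → ℝ} {q : ℕ} {w : ℤ → ℝ} (hw : Adm q w) {S : Set ℝ}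
    (hS : volume S ≠ ⊤) : IntegrableOn (WJ γ ψ q w) S := by
  refine Measure.integrableOn_of_bounded (M := 1) hS (measurable_WJ _ _ _ _).aestronglyMeasurable
    (Eventually.of_forall fun x => ?_)
  rw [Real.norm_eq_abs, abs_of_nonneg (WJ_nonneg hw.nonneg x)]
  exact WJ_le_one hw.le_one x

lemma integrableOn_WJ_mul {γ : ℝ} {ψ : ℕ → ℝ} {q r : ℕ} {w z : ℤ → ℝ} (hw : Adm q w) (hz : Adm r z)
    {S : Set ℝ} (hS : volume S ≠ ⊤) : IntegrableOn (fun x => WJ γ ψ q w x * WJ γ ψ r z x) S := by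
  refine Measure.integrableOn_of_bounded (M := 1) hS
    ((measurable_WJ _ _ _ _).mul (measurable_WJ _ _ _ _)).aestronglyMeasurable
    (Eventually.of_forall fun x => ?_)
  rw [Real.norm_eq_abs, abs_of_nonneg (mul_nonneg (WJ_nonneg hw.nonneg x) (WJ_nonneg hz.nonneg x))]
  exact mul_le_one₀ (WJ_le_one hw.le_one x) (WJ_nonneg hz.nonneg x) (WJ_le_one hz.le_one x)

lemma window_adm {L : ℝ} (hL : 0 < L) : ∃ Q : ℕ, ∀ (q : ℕ) (w : ℤ → ℝ), Q ≤ q → Adm q w → ∀ u v : ℤ,
    L * q ≤ (v:ℝ) - u → ((v:ℝ) - u) * lam q / 2 ≤ ∑ a ∈ Finset.Ico u v, w a := by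
  obtain ⟨M, hM⟩ := exists_nat_ge (((400 / L) ^ 2) ^ 2)
  refine ⟨max M 2, fun q w hq hw u v hlen => ?_⟩
  have hq2 : 2 ≤ q := le_trans (le_max_right _ _) hq
  have hqr : (2:ℝ) ≤ q := by exact_mod_cast hq2
  have hMq : (M:ℝ) ≤ q := by exact_mod_cast le_trans (le_max_left _ _) hq
  set len := (v:ℝ) - u
  have hlen0 : 0 < len := lt_of_lt_of_le (by positivity) hlen
  have huv : u ≤ v := by
    have : (u:ℝ) ≤ v := by simp only [len] at hlen0; linarith
    exact_mod_cast this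
  have h := (abs_le.1 (hw.window u v huv)).1
  have h2 := two_pow_card_le (q := q) (by omega)
  suffices 4 * Real.sqrt q ≤ len * lam q / 2 by linarith
  set r := Real.sqrt (Real.sqrt (q:ℝ))
  have hr2 : r ^ 2 = Real.sqrt q := Real.sq_sqrt (Real.sqrt_nonneg _)
  have hr4 : r ^ 4 = q := by
    rw [show r ^ 4 = (r ^ 2) ^ 2 by ring, hr2, Real.sq_sqrt (by linarith)]
  have hrM : 400 / L ≤ r := by
    apply Real.le_sqrt_of_sq_le
    apply Real.le_sqrt_of_sq_le
    linarith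
  have hr1 : 1 ≤ r := by rw [Real.one_le_sqrt, Real.one_le_sqrt]; linarith
  have hω : (q.primeFactors.card : ℝ) + 1 ≤ 9 * r := by
    have h := card_primeFactors_le_log q (by omega)
    have hl := Real.log_le_self (by linarith : 0 ≤ r)
    have e : Real.log (q:ℝ) = 4 * Real.log r := by rw [← hr4, Real.log_pow]; norm_num
    have := Real.log_two_gt_d9
    have : (0:ℝ) ≤ q.primeFactors.card := Nat.cast_nonneg _
    nlinarith
  have hlam : 1 / (9 * r) ≤ lam q :=
    le_trans (one_div_le_one_div_of_le (by positivity) hω) (lam_ge_card (by omega))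
  rw [← hr2]
  have h5 : L * r ^ 4 * (1 / (9 * r)) ≤ len * lam q :=
    mul_le_mul (by rw [hr4]; exact hlen) hlam (by positivity) hlen0.le
  have h6 : L * r ^ 4 * (1 / (9 * r)) = (L * r) * r ^ 2 / 9 := by field_simp
  have h7 : 400 ≤ L * r := by rw [div_le_iff₀ hL] at hrM; linarith
  have := mul_le_mul_of_nonneg_right h7 (sq_nonneg r)
  linarith [sq_nonneg r]

/-- In every subinterval of the unit interval an admissible weight has the expected mass. -/
lemma interval_lower_adm (γ : ℝ) {α β : ℝ} (hαβ : α < β) :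
    ∃ Q : ℕ, ∀ (q : ℕ) (w : ℤ → ℝ) (ψ : ℕ → ℝ), Q ≤ q → Adm q w → 0 ≤ ψ q → 2 * ψ q ≤ 1 →
      lam q * ψ q * (β - α) / 2 ≤ ∫ x in Set.Ico α β, WJ γ ψ q w x := by
  obtain ⟨Q, hQ⟩ := window_adm (L := (β - α) / 2) (by linarith)
  obtain ⟨M, hM⟩ := exists_nat_ge (8 / (β - α))
  refine ⟨max (max Q M) 1, fun q w ψ hq hw hψ0 hψ => ?_⟩
  have hq1 : 1 ≤ q := le_trans (le_max_right _ _) hq
  have hqr : (1:ℝ) ≤ q := by exact_mod_cast hq1
  have hbig : 8 ≤ (β - α) * q := by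
    have h1 : (M:ℝ) ≤ q := by
      exact_mod_cast le_trans (le_trans (le_max_right _ _) (le_max_left _ _)) hq
    have := (div_le_iff₀ (by linarith : (0:ℝ) < β - α)).1 hM
    nlinarith
  set u : ℤ := ⌈α * q - γ + 1⌉ with hu
  set v : ℤ := ⌊β * q - γ - 1⌋ with hv
  have hlen : (β - α) / 2 * q ≤ (v:ℝ) - u := by
    have := Int.ceil_lt_add_one (α * q - γ + 1)
    have := Int.sub_one_lt_floor (β * q - γ - 1)
    rw [hu, hv]
    linarith
  have hcount := hQ q w (le_trans (le_trans (le_max_left _ _) (le_max_left _ _)) hq) hw u v hlen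
  set G := Finset.Ico u v
  have hsub : (⋃ a ∈ G, J γ ψ q a) ⊆ Set.Ico α β := by
    refine Set.iUnion₂_subset fun a ha y hx => ?_
    obtain ⟨h1, h2⟩ := Finset.mem_Ico.1 ha
    rw [mem_J hq1, abs_lt] at hx
    have e1 : α * q - γ + 1 ≤ (a:ℝ) := Int.ceil_le.1 h1
    have e2 : (a:ℝ) ≤ β * q - γ - 1 := Int.le_floor.1 h2.le
    constructor
    · by_contra hlt
      have := mul_lt_mul_of_pos_right (not_le.1 hlt) (by linarith : (0:ℝ) < q)
      linarith
    · by_contra hlt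
      have := mul_le_mul_of_nonneg_right (not_lt.1 hlt) (by linarith : (0:ℝ) ≤ q)
      linarith
  have hIf : volume (Set.Ico α β) ≠ ⊤ := by rw [Real.volume_Ico]; exact ENNReal.ofReal_ne_top
  refine le_trans ?_ (setIntegral_mono_set (integrableOn_WJ hw hIf)
    (Eventually.of_forall fun x => WJ_nonneg hw.nonneg x) hsub.eventuallyLE)
  rw [integral_biUnion_finset G (s := fun a => J γ ψ q a) (fun _ _ => measurableSet_Ioo) (J_disjoint hq1 hψ _)
    (fun a _ => (integrableOn_WJ hw (J_finite γ ψ q a)))]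
  rw [Finset.sum_congr rfl fun a _ => show ∫ x in J γ ψ q a, WJ γ ψ q w x = 2 * ψ q / q * w a by
    rw [setIntegral_congr_fun (s := J γ ψ q a) measurableSet_Ioo (f := WJ γ ψ q w) (g := fun _ => w a) fun x hx => WJ_eq hq1 hψ hx,
      setIntegral_const, volume_real_J hψ0 a, smul_eq_mul]]
  rw [← Finset.mul_sum]
  refine le_trans ?_ (mul_le_mul_of_nonneg_left hcount (by positivity))
  calc lam q * ψ q * (β - α) / 2 = lam q * ψ q / q * ((β - α) / 2 * q) := by
        field_simp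
    _ ≤ lam q * ψ q / q * ((v:ℝ) - u) :=
        mul_le_mul_of_nonneg_left hlen (by have := lam_nonneg q; positivity)
    _ = _ := by ring

/-- In every union of cells an admissible weight has the expected mass. -/
lemma cells_lower_adm (γ : ℝ) (m : ℕ) (I : Finset ℕ) :
    ∃ Q : ℕ, ∀ (q : ℕ) (w : ℤ → ℝ) (ψ : ℕ → ℝ), Q ≤ q → Adm q w → 0 ≤ ψ q → 2 * ψ q ≤ 1 →
      lam q * ψ q * volume.real (⋃ j ∈ I, cell m j) / 2 ≤ ∫ x in ⋃ j ∈ I, cell m j, WJ γ ψ q w x := by
  have hf : ∀ j, volume (cell m j) ≠ ⊤ := fun j => by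
    rw [cell, Real.volume_Ico]; exact ENNReal.ofReal_ne_top
  have h : ∀ j : ℕ, ∃ Q : ℕ, ∀ (q : ℕ) (w : ℤ → ℝ) (ψ : ℕ → ℝ), Q ≤ q → Adm q w → 0 ≤ ψ q → 2 * ψ q ≤ 1 →
      lam q * ψ q * (1 / 2 ^ m) / 2 ≤ ∫ x in cell m j, WJ γ ψ q w x := by
    intro j
    obtain ⟨Q, hQ⟩ := interval_lower_adm γ (α := (j:ℝ) / 2 ^ m) (β := ((j:ℝ) + 1) / 2 ^ m)
      (div_lt_div_of_pos_right (by linarith) (by positivity))
    refine ⟨Q, fun q w ψ hq hw h1 h2 => ?_⟩
    have := hQ q w ψ hq hw h1 h2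
    rw [show ((j:ℝ) + 1) / 2 ^ m - (j:ℝ) / 2 ^ m = 1 / 2 ^ m by ring] at this
    exact this
  choose Q hQ using h
  refine ⟨I.sup Q, fun q w ψ hq hw h1 h2 => ?_⟩
  have e1 : volume.real (⋃ j ∈ I, cell m j) = ∑ j ∈ I, (1:ℝ) / 2 ^ m := by
    rw [measureReal_biUnion_finset (cell_disjoint m _) (fun j _ => measurableSet_Ico) (fun j _ => hf j)]
    exact Finset.sum_congr rfl fun j _ => volume_real_cell m j
  rw [e1, integral_biUnion_finset I (s := fun j => cell m j) (fun _ _ => measurableSet_Ico) (cell_disjoint m _)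
    (fun j _ => integrableOn_WJ hw (hf j)), Finset.mul_sum, Finset.sum_div]
  exact Finset.sum_le_sum fun j hj => hQ j q w ψ (le_trans (Finset.le_sup hj) hq) hw h1 h2

/-- Cauchy-Schwarz for a function vanishing outside a set. -/
lemma integral_sq_le {α : Type*} [MeasurableSpace α] (μ : Measure α) [IsFiniteMeasure μ] {T : Set α}
    (hT : MeasurableSet T) {f : α → ℝ} (hf : Integrable f μ) (hf2 : Integrable (fun x => f x ^ 2) μ)
    (h0 : ∀ x ∉ T, f x = 0) : (∫ x, f x ∂μ) ^ 2 ≤ μ.real T * ∫ x, f x ^ 2 ∂μ := by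
  have hi : Integrable (T.indicator fun _ => (1:ℝ)) μ := (integrable_const (1:ℝ)).indicator hT
  have key : ∀ s : ℝ, 2 * s * (∫ x, f x ∂μ) - s ^ 2 * μ.real T ≤ ∫ x, f x ^ 2 ∂μ := by
    intro s
    have h := integral_mono ((hf.const_mul (2 * s)).sub (hi.const_mul (s ^ 2))) hf2 (fun x => by
      simp only [Pi.sub_apply]
      by_cases hx : x ∈ T
      · rw [Set.indicator_of_mem hx]; nlinarith [sq_nonneg (f x - s)]
      · rw [Set.indicator_of_notMem hx, h0 x hx]; simp)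
    rw [integral_sub' (hf.const_mul (2 * s)) (hi.const_mul (s ^ 2)), integral_const_mul, integral_const_mul,
      integral_indicator_const _ hT, smul_eq_mul, mul_one] at h
    exact h
  rcases eq_or_lt_of_le (measureReal_nonneg (μ := μ) (s := T)) with hz | hz
  · rw [← hz, zero_mul]
    have hQ : 0 ≤ ∫ x, f x ^ 2 ∂μ := integral_nonneg fun x => sq_nonneg _
    refine le_of_eq ((sq_eq_zero_iff).2 (by_contra fun h => ?_))
    have h3 := key ((∫ x, f x ^ 2 ∂μ + 1) / (∫ x, f x ∂μ))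
    rw [← hz, mul_zero, sub_zero, mul_assoc, div_mul_cancel₀ _ h] at h3
    linarith
  · have h := key ((∫ x, f x ∂μ) / μ.real T)
    have e : ∀ m V : ℝ, 0 < V → 2 * (m / V) * m - (m / V) ^ 2 * V = m ^ 2 / V := fun m V hV => by
      field_simp; ring
    rw [e _ _ hz, div_le_iff₀ hz] at h
    linarith

/-- A set with a uniform quadratic lower bound in unions of dyadic cells fills the unit interval. -/
lemma null_of_lower {L : Set ℝ} (hLm : MeasurableSet L) {c : ℝ} (hc : 0 < c)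
    (hlow : ∀ (m : ℕ) (I : Finset ℕ), (∀ j ∈ I, j < 2 ^ m) →
      c * volume.real (⋃ j ∈ I, cell m j) ^ 2 ≤ volume.real (L ∩ ⋃ j ∈ I, cell m j)) :
    volume (Set.Ico (0:ℝ) 1 \ L) = 0 := by
  by_contra hne
  set A := Set.Ico (0:ℝ) 1 \ L with hA
  have hAf : volume A ≠ ⊤ := measure_ne_top_of_subset Set.sdiff_subset
    (by rw [Real.volume_Ico]; exact ENNReal.ofReal_ne_top)
  have hAm : MeasurableSet A := measurableSet_Ico.diff hLm
  obtain ⟨K, hKA, hK, hKpos⟩ := hAm.exists_lt_isCompact_of_ne_top hAf (pos_iff_ne_zero.2 hne)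
  have hKf : volume K ≠ ⊤ := hK.measure_lt_top.ne
  set κ := volume.real K with hκ
  have hκ0 : 0 < κ := ENNReal.toReal_pos hKpos.ne' hKf
  have hstep : ∀ m : ℕ, ENNReal.ofReal (κ + c * κ ^ 2) ≤ volume (Metric.cthickening (1 / 2 ^ m) K) := by
    intro m
    set I := (Finset.range (2 ^ m)).filter (fun j => (cell m j ∩ K).Nonempty) with hI
    set U := ⋃ j ∈ I, cell m j with hU
    have hKU : K ⊆ U := by
      intro x hx
      obtain ⟨⟨hx0, hx1⟩, -⟩ := hKA hx
      have hp : (0:ℝ) < 2 ^ m := by positivity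
      have hcell : x ∈ cell m ⌊x * 2 ^ m⌋₊ := by
        rw [cell, Set.mem_Ico, div_le_iff₀ hp, lt_div_iff₀ hp]
        exact ⟨Nat.floor_le (by positivity), Nat.lt_floor_add_one _⟩
      refine Set.mem_biUnion (x := ⌊x * 2 ^ m⌋₊) ?_ hcell
      refine Finset.mem_filter.2 ⟨Finset.mem_range.2 ?_, ⟨x, hcell, hx⟩⟩
      rw [Nat.floor_lt (by positivity)]
      push_cast
      exact mul_lt_of_lt_one_left hp hx1
    have hUth : U ⊆ Metric.cthickening (1 / 2 ^ m) K := by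
      refine Set.iUnion₂_subset fun j hj y hy => ?_
      obtain ⟨x, hx, hxK⟩ := (Finset.mem_filter.1 hj).2
      refine Metric.mem_cthickening_of_dist_le y x _ _ hxK ?_
      simp only [cell, Set.mem_Ico] at hx hy
      rw [Real.dist_eq, abs_le]
      have e : ((j:ℝ) + 1) / 2 ^ m = (j:ℝ) / 2 ^ m + 1 / 2 ^ m := add_div _ _ _
      constructor <;> linarith
    have hUf : volume U ≠ ⊤ := ((measure_biUnion_finset_le _ _).trans_lt
      (ENNReal.sum_lt_top.2 fun j _ => by rw [cell, Real.volume_Ico]; exact ENNReal.ofReal_lt_top)).ne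
    have h1 := hlow m I fun j hj => Finset.mem_range.1 (Finset.mem_filter.1 hj).1
    have hdisj : Disjoint (L ∩ U) K := Set.disjoint_left.2 fun x hx hxK => (hKA hxK).2 hx.1
    have h2 : volume.real (L ∩ U) + κ ≤ volume.real U := by
      rw [hκ, ← measureReal_union hdisj hK.isClosed.measurableSet
        (measure_ne_top_of_subset Set.inter_subset_right hUf) hKf]
      exact measureReal_mono (Set.union_subset Set.inter_subset_right hKU) hUf
    have h3 : κ ≤ volume.real U := measureReal_mono hKU hUf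
    have h4 : κ + c * κ ^ 2 ≤ volume.real U := by
      have := mul_le_mul_of_nonneg_left (pow_le_pow_left₀ hκ0.le h3 2) hc.le
      linarith
    exact ((ENNReal.ofReal_le_ofReal h4).trans (le_of_eq (ofReal_measureReal hUf))).trans (measure_mono hUth)
  have hlim := (tendsto_measure_cthickening_of_isCompact (μ := volume) hK).comp
    (show Tendsto (fun m : ℕ => (1:ℝ) / 2 ^ m) atTop (𝓝 0) from by
      have := tendsto_pow_atTop_nhds_zero_of_lt_one (by norm_num : (0:ℝ) ≤ 1/2) (by norm_num : (1:ℝ)/2 < 1)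
      simpa [one_div, inv_pow] using this)
  have hge := ge_of_tendsto' hlim hstep
  have := (ENNReal.ofReal_le_iff_le_toReal hKf).1 hge
  have : c * κ ^ 2 ≤ 0 := by simp only [hκ, Measure.real] at *; linarith
  nlinarith [mul_pos hc (pow_pos hκ0 2)]

/-- The weighted mass `∑ φ(q) ψ(q) / q`. -/
noncomputable def mass (F : Finset ℕ) (ψ : ℕ → ℝ) : ℝ := ∑ q ∈ F, lam q * ψ q

/-- The second moment of a family of weights on the torus. -/
noncomputable def pairSum (γ : ℝ) (ψ : ℕ → ℝ) (F : Finset ℕ) (w : ℕ → ℤ → ℝ) : ℝ :=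
  ∑ q ∈ F, ∑ r ∈ F, ∫ x in Set.Ico (0:ℝ) 1, WJ γ ψ q (w q) x * WJ γ ψ r (w r) x

/-- Every finite family below `exp (-l₀)` has admissible weights with second moment `≤ C (M + M ^ 2)`. -/
def Moment (γ l₀ C : ℝ) : Prop :=
  ∀ (ψ : ℕ → ℝ) (F : Finset ℕ), (∀ q ∈ F, 0 < q ∧ 0 ≤ ψ q ∧ 2 * ψ q ≤ 1 ∧ ψ q ≤ Real.exp (-l₀)) →
    ∃ w : ℕ → ℤ → ℝ, (∀ q ∈ F, Adm q (w q)) ∧
      pairSum γ ψ F w ≤ C * (mass F ψ + mass F ψ ^ 2)

lemma moment_of_norm {γ l₀ a b : ℝ} (h : ∀ (ψ : ℕ → ℝ) (F : Finset ℕ),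
    (∀ q ∈ F, 0 < q ∧ 0 ≤ ψ q ∧ 2 * ψ q ≤ 1 ∧ ψ q ≤ Real.exp (-l₀)) →
    ∃ w : ℕ → ℤ → ℝ, (∀ q ∈ F, Adm q (w q)) ∧
      pairSum γ ψ F w ≤ (a * Real.sqrt (mass F ψ) + b * mass F ψ) ^ 2) :
    Moment γ l₀ (2 * (a ^ 2 + b ^ 2)) := by
  intro ψ F hF
  obtain ⟨w, hw, hb⟩ := h ψ F hF
  refine ⟨w, hw, hb.trans ?_⟩
  have hM : 0 ≤ mass F ψ := Finset.sum_nonneg fun q hq => mul_nonneg (lam_nonneg q) (hF q hq).2.1
  have hs := Real.sq_sqrt hM
  set S := Real.sqrt (mass F ψ)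
  nlinarith [sq_nonneg (a * S - b * mass F ψ), mul_nonneg (sq_nonneg a) (sq_nonneg (mass F ψ)),
    mul_nonneg (sq_nonneg b) hM]

/-- The points in infinitely many approximation sets. -/
def Lims (γ : ℝ) (ψ : ℕ → ℝ) : Set ℝ :=
  ⋂ N : ℕ, ⋃ q : ℕ, ⋃ (_ : N < q), ⋃ a : ℤ, J γ ψ q a

lemma Lims_full {γ l₀ C : ℝ} (hC : Moment γ l₀ C) {f : ℕ → ℝ} (hf0 : ∀ q, 0 ≤ f q)
    (hf2 : ∀ q, 2 * f q ≤ 1) (hfl : ∀ q, f q ≤ Real.exp (-l₀))
    (hdiv : ¬ Summable (fun q => lam q * f q)) : volume (Set.Ico (0:ℝ) 1 \ Lims γ f) = 0 := by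
  set C' := max C 1
  have hC1 : 1 ≤ C' := le_max_right _ _
  refine null_of_lower (MeasurableSet.iInter fun _ => MeasurableSet.iUnion fun _ => MeasurableSet.iUnion
    fun _ => MeasurableSet.iUnion fun _ => measurableSet_Ioo) (c := 1 / (8 * C')) (by positivity)
    fun m I hI => ?_
  set U := ⋃ j ∈ I, cell m j with hU
  set V := volume.real U with hV
  have hUm : MeasurableSet U := Finset.measurableSet_biUnion _ fun j _ => measurableSet_Ico
  have hU1 : U ⊆ Set.Ico (0:ℝ) 1 := by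
    refine Set.iUnion₂_subset fun j hj x hx => ?_
    have h0 : (0:ℝ) ≤ (j:ℝ) / 2 ^ m := by positivity
    have h1 : ((j:ℝ) + 1) / 2 ^ m ≤ 1 := by
      rw [div_le_one (by positivity)]
      exact_mod_cast hI j hj
    simp only [cell, Set.mem_Ico] at hx ⊢
    exact ⟨h0.trans hx.1, lt_of_lt_of_le hx.2 h1⟩
  have hIf : volume (Set.Ico (0:ℝ) 1) ≠ ⊤ := by rw [Real.volume_Ico]; exact ENNReal.ofReal_ne_top
  have hUf : volume U ≠ ⊤ := measure_ne_top_of_subset hU1 hIf
  have : IsFiniteMeasure (volume.restrict U) := isFiniteMeasure_restrict.2 hUf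
  obtain ⟨Q0, hQ0⟩ := cells_lower_adm γ m I
  set T := fun N : ℕ => (⋃ q : ℕ, ⋃ (_ : N < q), ⋃ a : ℤ, J γ f q a) ∩ U with hT
  have hTm : ∀ N, MeasurableSet (T N) := fun N => (MeasurableSet.iUnion fun _ => MeasurableSet.iUnion fun _ =>
    MeasurableSet.iUnion fun _ => measurableSet_Ioo).inter hUm
  have hanti : Antitone T := by
    intro N M hNM x hx
    obtain ⟨hx1, hx2⟩ := hx
    obtain ⟨q, h1, hxq⟩ := Set.mem_iUnion₂.1 hx1
    exact ⟨Set.mem_iUnion₂.2 ⟨q, lt_of_le_of_lt hNM h1, hxq⟩, hx2⟩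
  have hterm : ∀ q, 0 ≤ lam q * f q := fun q => mul_nonneg (lam_nonneg q) (hf0 q)
  have hlate : ∀ N : ℕ, ∃ F : Finset ℕ, (∀ q ∈ F, N < q) ∧ 1 ≤ mass F f := by
    intro N
    by_contra hno
    push Not at hno
    refine hdiv (summable_of_sum_le (c := ∑ q ∈ Finset.range (N + 1), lam q * f q + 1) hterm fun G => ?_)
    rw [← Finset.sum_filter_add_sum_filter_not G (fun q => q ≤ N)]
    refine add_le_add (Finset.sum_le_sum_of_subset_of_nonneg (fun q hq => ?_) fun q _ _ => hterm q) ?_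
    · exact Finset.mem_range.2 (by have := (Finset.mem_filter.1 hq).2; omega)
    · exact (hno _ fun q hq => not_le.1 (Finset.mem_filter.1 hq).2).le
  have hlow : ∀ N, ENNReal.ofReal (1 / (8 * C') * V ^ 2) ≤ volume (T N) := by
    intro N
    obtain ⟨F, hF, hK1⟩ := hlate (max N Q0)
    set K := mass F f
    have hFq : ∀ q ∈ F, 0 < q := fun q hq => by have := hF q hq; omega
    obtain ⟨w, hw, hpair⟩ := hC f F fun q hq => ⟨hFq q hq, hf0 q, hf2 q, hfl q⟩
    set g := fun x => ∑ q ∈ F, WJ γ f q (w q) x with hg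
    have hgi : Integrable g (volume.restrict U) :=
      integrable_finsetSum F fun q hq => integrableOn_WJ (hw q hq) hUf
    have hg2 : (fun x => g x ^ 2) = fun x => ∑ q ∈ F, ∑ r ∈ F, WJ γ f q (w q) x * WJ γ f r (w r) x := by
      funext x; rw [hg, sq, Finset.sum_mul_sum]
    have hg2i : Integrable (fun x => g x ^ 2) (volume.restrict U) := by
      rw [hg2]
      exact integrable_finsetSum F fun q hq => integrable_finsetSum F fun r hr =>
        integrableOn_WJ_mul (hw q hq) (hw r hr) hUf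
    have hQb : ∫ x in U, g x ^ 2 ≤ 2 * C' * K ^ 2 := by
      rw [hg2, integral_finsetSum F fun q hq => integrable_finsetSum F fun r hr =>
        integrableOn_WJ_mul (hw q hq) (hw r hr) hUf]
      rw [Finset.sum_congr rfl fun q hq => integral_finsetSum F fun r hr =>
        integrableOn_WJ_mul (hw q hq) (hw r hr) hUf]
      refine le_trans (Finset.sum_le_sum fun q hq => Finset.sum_le_sum fun r hr =>
        setIntegral_mono_set (integrableOn_WJ_mul (hw q hq) (hw r hr) hIf)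
          (Eventually.of_forall fun x => mul_nonneg (WJ_nonneg (hw q hq).nonneg x)
            (WJ_nonneg (hw r hr).nonneg x)) hU1.eventuallyLE) (hpair.trans ?_)
      have h1 : K + K ^ 2 ≤ 2 * K ^ 2 := by nlinarith
      calc C * (K + K ^ 2) ≤ C' * (K + K ^ 2) :=
            mul_le_mul_of_nonneg_right (le_max_left _ _) (by nlinarith)
        _ ≤ C' * (2 * K ^ 2) := mul_le_mul_of_nonneg_left h1 (by linarith)
        _ = _ := by ring
    have hm : K * V / 2 ≤ ∫ x in U, g x := by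
      rw [hg, integral_finsetSum F fun q hq => integrableOn_WJ (hw q hq) hUf]
      simp only [K, mass, Finset.sum_mul, Finset.sum_div]
      exact Finset.sum_le_sum fun q hq => hQ0 q (w q) f (le_trans (le_max_right _ _) (hF q hq).le)
        (hw q hq) (hf0 q) (hf2 q)
    set S := ⋃ q : ℕ, ⋃ (_ : N < q), ⋃ a : ℤ, J γ f q a with hSdef
    have hSm : MeasurableSet S := MeasurableSet.iUnion fun _ => MeasurableSet.iUnion fun _ =>
      MeasurableSet.iUnion fun _ => measurableSet_Ioo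
    have hcs := integral_sq_le (volume.restrict U) hSm hgi hg2i fun x hx => Finset.sum_eq_zero fun q hq =>
      WJ_eq_zero (hFq q hq) fun h => hx (Set.mem_iUnion₂.2 ⟨q, lt_of_le_of_lt (le_max_left _ _) (hF q hq), h⟩)
    rw [measureReal_restrict_apply hSm] at hcs
    rw [← ofReal_measureReal (measure_ne_top_of_subset (Set.inter_subset_right : T N ⊆ U) hUf)]
    apply ENNReal.ofReal_le_ofReal
    set X := volume.real (T N)
    have hK0 : 0 < K := by linarith
    have h1 : (K * V / 2) ^ 2 ≤ X * (2 * C' * K ^ 2) :=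
      le_trans (pow_le_pow_left₀ (div_nonneg (mul_nonneg hK0.le measureReal_nonneg) (by norm_num)) hm 2)
        (hcs.trans (mul_le_mul_of_nonneg_left hQb measureReal_nonneg))
    refine le_of_mul_le_mul_right ?_ (by positivity : 0 < 2 * C' * K ^ 2)
    refine le_trans (le_of_eq ?_) h1
    field_simp; ring
  have hlim := tendsto_measure_iInter_atTop (μ := volume) (s := T)
    (fun N => (hTm N).nullMeasurableSet) hanti
    ⟨0, measure_ne_top_of_subset Set.inter_subset_right hUf⟩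
  have e : (⋂ N, T N) = Lims γ f ∩ U := by
    rw [Lims, Set.iInter_inter]
  rw [e] at hlim
  have hge := ge_of_tendsto' hlim hlow
  exact (ENNReal.ofReal_le_iff_le_toReal (measure_ne_top_of_subset Set.inter_subset_right hUf)).1 hge

/-- A bound `C (M + M ^ 2)` for admissible weights gives the conjecture for the shift `γ`. -/
theorem full_of_moment {γ l₀ C : ℝ} (hC : Moment γ l₀ C) (ψ : ℕ → NNReal)
    (hdiv : ¬ Summable (fun q : ℕ => lam q * (ψ q : ℝ))) :
    volume ({x : ℝ | {q : ℕ | 0 < q ∧ ∃ a : ℤ, |(q:ℝ) * x - a - γ| < (ψ q : ℝ)}.Infinite}ᶜ) = 0 := by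
  set W := {x : ℝ | {q : ℕ | 0 < q ∧ ∃ a : ℤ, |(q:ℝ) * x - a - γ| < (ψ q : ℝ)}.Infinite}
  by_cases hbig : {q : ℕ | 0 < q ∧ (1/2 : ℝ) < ψ q}.Infinite
  · have : W = Set.univ := Set.eq_univ_iff_forall.2 fun x => hbig.mono fun q hq =>
      ⟨hq.1, round ((q:ℝ) * x - γ), lt_of_le_of_lt (by
        rw [show (q:ℝ) * x - round ((q:ℝ) * x - γ) - γ = (q:ℝ) * x - γ - round ((q:ℝ) * x - γ) by ring]
        exact abs_sub_round _) hq.2⟩
    rw [this, Set.compl_univ, measure_empty]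
  set b := min (Real.exp (-l₀)) (1 / 2)
  have hb : 0 < b := lt_min (Real.exp_pos _) (by norm_num)
  set f : ℕ → ℝ := fun q => min (ψ q : ℝ) b with hf
  have hs : ¬ Summable (fun q => lam q * f q) := by
    intro hsum
    apply hdiv
    set K := max 1 (1 / (2 * b))
    have hfin : {q : ℕ | 0 < q ∧ (1/2 : ℝ) < ψ q}.Finite := Set.not_infinite.1 hbig
    refine Summable.of_norm_bounded_eventually (g := fun q => K * (lam q * f q)) (hsum.mul_left K) ?_
    filter_upwards [(hfin.insert 0).compl_mem_cofinite] with q hq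
    simp only [Set.mem_compl_iff, Set.mem_insert_iff, Set.mem_ofPred_eq, not_or, not_and, not_lt] at hq
    have hh := hq.2 (Nat.pos_of_ne_zero hq.1)
    rw [Real.norm_eq_abs, abs_of_nonneg (mul_nonneg (lam_nonneg q) (NNReal.coe_nonneg _)),
      show K * (lam q * f q) = lam q * (K * f q) by ring]
    refine mul_le_mul_of_nonneg_left ?_ (lam_nonneg q)
    rcases le_or_gt (ψ q : ℝ) b with h | h
    · simp only [hf, min_eq_left h]
      exact le_mul_of_one_le_left (NNReal.coe_nonneg _) (le_max_left _ _)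
    · simp only [hf, min_eq_right h.le]
      refine hh.trans (le_trans (le_of_eq ?_) (mul_le_mul_of_nonneg_right (le_max_right _ _) hb.le))
      field_simp
  have h0 := Lims_full hC (fun q => le_min (NNReal.coe_nonneg _) hb.le)
    (fun q => by
      have h1 := min_le_right (ψ q : ℝ) b
      have h2 : b ≤ 1 / 2 := min_le_right _ _
      linarith)
    (fun q => (min_le_right _ _).trans (min_le_left _ _)) hs
  have hsub : Lims γ f ⊆ W := by
    intro x hx
    refine Set.infinite_of_forall_exists_gt fun N => ?_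
    obtain ⟨q, hq, hxq⟩ := Set.mem_iUnion₂.1 (Set.mem_iInter.1 hx N)
    refine ⟨q, ⟨by omega, ?_⟩, hq⟩
    obtain ⟨a, ha⟩ := Set.mem_iUnion.1 hxq
    rw [mem_J (by omega)] at ha
    exact ⟨a, ha.trans_le (min_le_left _ _)⟩
  have hinv : ∀ (x : ℝ) (j : ℤ), x ∈ W → x + j ∈ W := by
    intro x j hx
    refine hx.mono fun q hq => ⟨hq.1, ?_⟩
    obtain ⟨a, ha⟩ := hq.2
    refine ⟨a + q * j, ?_⟩
    push_cast
    rw [show (q:ℝ) * (x + j) - (a + q * j) - γ = (q:ℝ) * x - a - γ by ring]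
    exact ha
  have hcover : Wᶜ ⊆ ⋃ j : ℤ, (fun x => x + (-(j:ℝ))) ⁻¹' (Set.Ico (0:ℝ) 1 \ Lims γ f) := by
    intro x hx
    refine Set.mem_iUnion.2 ⟨⌊x⌋, ⟨?_, ?_⟩, fun h => hx ?_⟩
    · linarith [Int.floor_le x]
    · linarith [Int.lt_floor_add_one x]
    · simpa using hinv _ ⌊x⌋ (hsub h)
  refine measure_mono_null hcover (measure_iUnion_null fun j => ?_)
  rw [measure_preimage_add_right]
  exact h0

/-- Q1 for every shift follows from moment bounds for every shift. -/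
theorem conjecture_of_moments (h : ∀ γ : ℝ, ∃ l₀ C : ℝ, Moment γ l₀ C) (γ : ℝ) (ψ : ℕ → NNReal)
    (hdiv : ¬ Summable (fun q : ℕ => (q.totient : ℝ) / q * (ψ q : ℝ))) :
    volume ({x : ℝ | {q : ℕ | 0 < q ∧ ∃ a : ℤ, |(q:ℝ) * x - a - γ| < (ψ q : ℝ)}.Infinite}ᶜ) = 0 := by
  obtain ⟨l₀, C, hC⟩ := h γ
  exact full_of_moment hC ψ hdiv

end Vale.Agent.P028.FQ1
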