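import Vale.Agent.P028.Main

/-! Admissible weights: mixtures of selections with one excluded class per prime. -/

namespace Vale.Agent.P028.FQ1

open Finset
open scoped Classical

/-- A weight on the numerators of `q` with the statistics of a one-class-per-prime selection. -/
structure Adm (q : ℕ) (w : ℤ → ℝ) : Prop where
  nonneg : ∀ a, 0 ≤ w a
  le_one : ∀ a, w a ≤ 1
  periodic : ∀ a : ℤ, w (a + q) = w a
  sum_period : ∑ a ∈ Finset.Ico 0 (q:ℤ), w a = q.totient
  window : ∀ u v : ℤ, u ≤ v →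
    |∑ a ∈ Finset.Ico u v, w a - ((v:ℝ) - u) * lam q| ≤ 2 ^ q.primeFactors.card

/-- The indicator of a selection. -/
noncomputable def selW (q : ℕ) (c : ℕ → ℤ) (a : ℤ) : ℝ := if Avoid q.primeFactors c a then 1 else 0

lemma adm_selW {q : ℕ} (hq : 0 < q) (c : ℕ → ℤ) : Adm q (selW q c) := by
  have hP : ∀ p ∈ q.primeFactors, p.Prime := fun p hp => Nat.prime_of_mem_primeFactors hp
  have hs : ∀ u v : ℤ, ∑ a ∈ Finset.Ico u v, selW q c a
      = (((Finset.Ico u v).filter (Avoid q.primeFactors c)).card : ℝ) := fun u v => by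
    simp [selW, Finset.sum_boole]
  refine ⟨fun a => ?_, fun a => ?_, fun a => ?_, ?_, fun u v huv => ?_⟩
  · unfold selW; split_ifs <;> norm_num
  · unfold selW; split_ifs <;> norm_num
  · refine if_congr (forall₂_congr fun p hp => not_congr ?_) rfl rfl
    rw [show a + (q:ℤ) - c p = a - c p + q by ring]
    exact Int.dvd_add_left (Int.natCast_dvd_natCast.2 (Nat.dvd_of_mem_primeFactors hp))
  · have h := (interval_avoid 0 (q:ℤ) (Nat.cast_nonneg q) q.primeFactors hP c).2 (fun T hT => by
      rw [sub_zero, Int.natCast_dvd_natCast, prod_dvd_iff_forall T (fun p hp => hP p (hT hp))]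
      exact fun p hp => Nat.dvd_of_mem_primeFactors (hT hp))
    rw [hs, h, ← lam_eq_prod hq]
    have : (q:ℝ) ≠ 0 := by positivity
    unfold lam
    push_cast
    field_simp
    ring
  · rw [hs, lam_eq_prod hq]
    exact (interval_avoid u v huv q.primeFactors hP c).1

/-- Finite convex mixtures of admissible weights are admissible. -/
lemma adm_mix {q : ℕ} {ι : Type*} (s : Finset ι) (π : ι → ℝ) (w : ι → ℤ → ℝ)
    (hπ : ∀ i ∈ s, 0 ≤ π i) (hsum : ∑ i ∈ s, π i = 1) (hw : ∀ i ∈ s, Adm q (w i)) :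
    Adm q (fun a => ∑ i ∈ s, π i * w i a) := by
  refine ⟨fun a => Finset.sum_nonneg fun i hi => mul_nonneg (hπ i hi) ((hw i hi).nonneg a), fun a => ?_,
    fun a => Finset.sum_congr rfl fun i hi => by rw [(hw i hi).periodic], ?_, fun u v huv => ?_⟩
  · rw [← hsum]
    exact Finset.sum_le_sum fun i hi => mul_le_of_le_one_right (hπ i hi) ((hw i hi).le_one a)
  · rw [Finset.sum_comm, Finset.sum_congr rfl (fun i hi => by rw [← Finset.mul_sum, (hw i hi).sum_period]),
      ← Finset.sum_mul, hsum, one_mul]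
  · rw [Finset.sum_comm]
    have e : ∑ i ∈ s, ∑ a ∈ Finset.Ico u v, π i * w i a - ((v:ℝ) - u) * lam q
        = ∑ i ∈ s, π i * (∑ a ∈ Finset.Ico u v, w i a - ((v:ℝ) - u) * lam q) := by
      simp only [mul_sub, Finset.sum_sub_distrib, ← Finset.mul_sum, ← Finset.sum_mul, hsum, one_mul]
    rw [e]
    refine (Finset.abs_sum_le_sum_abs _ _).trans ?_
    calc ∑ i ∈ s, |π i * (∑ a ∈ Finset.Ico u v, w i a - ((v:ℝ) - u) * lam q)|
        ≤ ∑ i ∈ s, π i * 2 ^ q.primeFactors.card := Finset.sum_le_sum fun i hi => by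
          rw [abs_mul, abs_of_nonneg (hπ i hi)]
          exact mul_le_mul_of_nonneg_left ((hw i hi).window u v huv) (hπ i hi)
      _ = _ := by rw [← Finset.sum_mul, hsum, one_mul]

/-- The weight of independently random excluded classes with laws `μ p` on `[0, p)`. -/
noncomputable def indepW (q : ℕ) (μ : ℕ → ℕ → ℝ) (a : ℤ) : ℝ :=
  ∏ p ∈ q.primeFactors, ∑ j ∈ Finset.range p, if (p:ℤ) ∣ a - (j:ℤ) then 0 else μ p j

lemma adm_indepW {q : ℕ} (hq : 0 < q) (μ : ℕ → ℕ → ℝ)
    (hμ : ∀ p ∈ q.primeFactors, (∀ j < p, 0 ≤ μ p j) ∧ ∑ j ∈ Finset.range p, μ p j = 1) :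
    Adm q (indepW q μ) := by
  set P := q.primeFactors
  set c : (∀ p ∈ P, ℕ) → ℕ → ℤ := fun g p => if h : p ∈ P then (g p h : ℤ) else 0 with hc
  set π : (∀ p ∈ P, ℕ) → ℝ := fun g => ∏ x ∈ P.attach, μ x.1 (g x.1 x.2) with hπ
  have key : ∀ a, indepW q μ a = ∑ g ∈ P.pi (fun p => Finset.range p), π g * selW q (c g) a := by
    intro a
    unfold indepW
    rw [Finset.prod_sum]
    refine Finset.sum_congr rfl fun g _ => ?_
    by_cases h : Avoid P (c g) a
    · rw [selW, if_pos h, mul_one, hπ]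
      refine Finset.prod_congr rfl fun x _ => if_neg ?_
      have := h x.1 x.2
      simpa [hc, x.2] using this
    · rw [selW, if_neg h, mul_zero]
      simp only [Avoid, not_forall, not_not] at h
      obtain ⟨p, hp, hd⟩ := h
      refine Finset.prod_eq_zero (Finset.mem_attach _ ⟨p, hp⟩) (if_pos ?_)
      simpa [hc, hp] using hd
  have h := adm_mix (P.pi (fun p => Finset.range p)) π (fun g => selW q (c g))
    (fun g hg => Finset.prod_nonneg fun x _ =>
      (hμ x.1 x.2).1 _ (Finset.mem_range.1 (Finset.mem_pi.1 hg x.1 x.2)))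
    (by
      simp only [hπ]
      rw [← Finset.prod_sum P (fun p => Finset.range p) (fun p j => μ p j)]
      exact Finset.prod_eq_one fun p hp => (hμ p hp).2)
    (fun g _ => adm_selW hq (c g))
  convert h using 1
  funext a
  exact key a

/-- Random classes at the primes in `S`, the classes `c p` at the other primes. -/
noncomputable def randW (q : ℕ) (S : Finset ℕ) (c : ℕ → ℤ) (a : ℤ) : ℝ :=
  (∏ p ∈ S, (1 - 1 / (p:ℝ))) * if Avoid (q.primeFactors \ S) c a then 1 else 0

lemma card_dvd_range {p : ℕ} (hp : 0 < p) (a : ℤ) :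
    ((Finset.range p).filter (fun j : ℕ => (p:ℤ) ∣ a - (j:ℤ))).card = 1 := by
  rw [Finset.card_eq_one]
  have hp' : (0:ℤ) < p := by exact_mod_cast hp
  refine ⟨(a % (p:ℤ)).toNat, ?_⟩
  have h1 := Int.emod_nonneg a hp'.ne'
  have h2 := Int.emod_lt_of_pos a hp'
  ext j
  simp only [Finset.mem_filter, Finset.mem_range, Finset.mem_singleton]
  constructor
  · rintro ⟨hj, hd⟩
    have e : (j:ℤ) = a % (p:ℤ) := by
      rw [← Int.emod_eq_of_lt (by positivity : (0:ℤ) ≤ j) (by exact_mod_cast hj : (j:ℤ) < p)]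
      exact Int.modEq_iff_dvd.2 hd
    omega
  · rintro rfl
    refine ⟨by omega, ?_⟩
    rw [Int.toNat_of_nonneg h1]
    exact ⟨a / p, by have := Int.mul_ediv_add_emod a (p:ℤ); linarith⟩

lemma adm_randW {q : ℕ} (hq : 0 < q) {S : Finset ℕ} (hS : S ⊆ q.primeFactors) (c : ℕ → ℤ) :
    Adm q (randW q S c) := by
  set μ : ℕ → ℕ → ℝ := fun p j =>
    if p ∈ S then 1 / (p:ℝ) else if (p:ℤ) ∣ c p - (j:ℤ) then 1 else 0
  have hμ : ∀ p ∈ q.primeFactors, (∀ j < p, 0 ≤ μ p j) ∧ ∑ j ∈ Finset.range p, μ p j = 1 := fun p hp => by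
    have hp0 := (Nat.prime_of_mem_primeFactors hp).pos
    refine ⟨fun j _ => by simp only [μ]; split_ifs <;> positivity, ?_⟩
    by_cases h : p ∈ S
    · simp only [μ, if_pos h, Finset.sum_const, Finset.card_range, nsmul_eq_mul]
      rw [mul_one_div_cancel (by positivity)]
    · simp only [μ, if_neg h, Finset.sum_boole, card_dvd_range hp0]
      norm_num
  suffices randW q S c = indepW q μ by rw [this]; exact adm_indepW hq μ hμ
  funext a
  unfold randW indepW
  rw [← Finset.prod_sdiff hS, mul_comm]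
  congr 1
  · rw [show (if Avoid (q.primeFactors \ S) c a then (1:ℝ) else 0)
        = ∏ p ∈ q.primeFactors \ S, if (p:ℤ) ∣ a - c p then (0:ℝ) else 1 by
      by_cases h : Avoid (q.primeFactors \ S) c a
      · rw [if_pos h, Finset.prod_eq_one fun p hp => if_neg (h p hp)]
      · rw [if_neg h]
        simp only [Avoid, not_forall, not_not] at h
        obtain ⟨p, hp, hd⟩ := h
        exact (Finset.prod_eq_zero (f := fun p : ℕ => if (p:ℤ) ∣ a - c p then (0:ℝ) else 1) hp
          (if_pos hd)).symm]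
    refine Finset.prod_congr rfl fun p hp => ?_
    obtain ⟨hp1, hp2⟩ := Finset.mem_sdiff.1 hp
    have hp0 := (Nat.prime_of_mem_primeFactors hp1).pos
    simp only [μ, if_neg hp2]
    by_cases h : (p:ℤ) ∣ a - c p
    · rw [if_pos h]
      refine (Finset.sum_eq_zero fun j _ => ?_).symm
      by_cases h' : (p:ℤ) ∣ a - (j:ℤ)
      · rw [if_pos h']
      · rw [if_neg h', if_neg]
        intro hd
        exact h' (by have := Int.dvd_add h hd; simpa using this)
    · rw [if_neg h]
      have e : ∀ j : ℕ, (if (p:ℤ) ∣ a - (j:ℤ) then 0 else if (p:ℤ) ∣ c p - (j:ℤ) then (1:ℝ) else 0)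
          = if (p:ℤ) ∣ c p - (j:ℤ) then (1:ℝ) else 0 := fun j => by
        by_cases h' : (p:ℤ) ∣ a - (j:ℤ)
        · rw [if_pos h', if_neg]
          intro hd
          exact h (by have := Int.dvd_sub h' hd; simpa using this)
        · rw [if_neg h']
      simp only [e, Finset.sum_boole, card_dvd_range hp0]
      norm_num
  · refine Finset.prod_congr rfl fun p hp => ?_
    have hp0 := (Nat.prime_of_mem_primeFactors (hS hp)).pos
    simp only [μ, if_pos hp]
    rw [Finset.sum_ite, Finset.sum_const_zero, zero_add, Finset.sum_const, nsmul_eq_mul,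
      Finset.filter_not, Finset.card_sdiff_of_subset (Finset.filter_subset _ _), card_dvd_range hp0,
      Finset.card_range, Nat.cast_sub hp0]
    field_simp
    push_cast
    ring

end Vale.Agent.P028.FQ1
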